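import Crest.Agent.X212.Tf47.Psi
import Crest.Agent.X212.Tw39.Main
import Crest.Agent.X212.Hd34.Del

/-!
# X212/Tf47/Main (helper47): `Hel40.TfStmt`
-/

set_option autoImplicit false
set_option linter.unusedSectionVars false

open Set Filter Topology Function Real
open scoped ContDiff Manifold
open Crest.Agent.R208.F Crest.Agent.X212.Dr59 Crest.Agent.X212.Cyl58 Crest.Agent.X212.Hel40
open Crest.Agent.X212.Sep15 (EE IR CM Box slab px Rg)
open Crest.Agent.X212.Bb31 (Fm Df Dy)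
open Crest.Agent.X212.Sym24 (pu dT nc)
open Crest.Agent.X212.H7 (Hd Kl Hx FT)
open Crest.Agent.X212.Line51 (ang CSm)

noncomputable section

namespace Crest.Agent.X212.Tf47

variable {Y Y' : CM 3} {R : CM 2}

theorem md {EA HA EB HB : Type*} [NormedAddCommGroup EA] [NormedSpace ℝ EA] [TopologicalSpace HA]
    [NormedAddCommGroup EB] [NormedSpace ℝ EB] [TopologicalSpace HB]
    {IA : ModelWithCorners ℝ EA HA} {IB : ModelWithCorners ℝ EB HB} {A B : Type*}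
    [TopologicalSpace A] [ChartedSpace HA A] [TopologicalSpace B] [ChartedSpace HB B] {f : A → B}
    {x : A} (h : ContMDiffAt IA IB ∞ f x) : MDifferentiableAt IA IB f x :=
  h.mdifferentiableAt (by simp)

/-! ### the forms -/

theorem csm_cay (p : R × ℝ) : CSm (IR 2) (fun q : R × ℝ => cay q.2) p :=
  (contMDiff_cay.comp contMDiff_snd) p

theorem ang_cay (p : R × ℝ) :
    ang (IR 2) (fun q : R × ℝ => cay q.2) p = (2 * (1 / (1 + p.2 ^ 2))) • dT (EE 2) :=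
  (Line51.ang_exp (f := fun q : R × ℝ => π + 2 * arctan q.2)
    ((contDiff_cayA.contMDiff.comp contMDiff_snd) p)).trans
    (Sym24.df_comp_snd (((hasDerivAt_arctan p.2).const_mul 2).const_add π))

theorem kl {oR : Fm 2 R} {A B : ℂ → R} {δ ε : ℝ} (ho : Int54.Ori (𝓡 2) oR) (H : Hd oR A B δ)
    (hε : 0 < ε) (hδ : ε < δ) : Kl oR (ang (𝓡 2) (del A ε)) := by
  have hA : An' A := ⟨H.hA.ld, H.hA.per⟩
  obtain ⟨h1, h2, h3, h4, -⟩ := Hd34.delStmt R A ε hA hε
  have cd : ContDiff ℝ ∞ fun r => 2 * π * Hel40.stp ε r :=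
    contDiff_const.mul (Hd34.stp_cd ε)
  have ci : ContMDiff 𝓘(ℝ, ℂ) 𝓘(ℝ, ℝ) ∞ Complex.im := Complex.imCLM.contDiff.contMDiff
  refine Tw39.twStmt R oR _ A B δ ε (fun z => deriv (fun r => 2 * π * Hel40.stp ε r) z.im) ho H
    hδ (Line51.dg_ang _) (fun z => Monotone.deriv_nonneg fun r s hrs => ?_) (fun z => ?_) fun x hx => ?_
  · refine mul_le_mul_of_nonneg_left (smoothTransition.monotone ?_) two_pi_pos.le
    gcongr
  · rw [Line51.pm_ang (h1 _) (md (hA.1.contMDiff z)), show del A ε ∘ A = _ from funext h2]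
    exact (Line51.ang_exp ((cd.contMDiff.comp ci) z)).trans
      (Tw39.df_comp (md (ci z)) ((cd.differentiable (by simp)) _).hasDerivAt)
  · rw [ang_eq, dl_of_const (c := 1), map_zero]
    filter_upwards [h3.isClosed.isOpen_compl.mem_nhds hx] with y hy using h4 y hy

theorem hx {U : Set Y} {Φ : Y → Circle} {b : R × ℝ → Y} {u : R → Circle} {k : ℕ} (hb : Box b)
    (hΦ : SC Φ) (hu : SC u) (hk : 0 < k) (hU : slab b (Icc (-3) 3) ⊆ U)
    (e : ∀ p : R × ℝ, |p.2| < 3 → Φ (b p) = cay p.2 ^ k * u p.1) :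
    Hx b U (ang (𝓡 3) Φ) (ang (𝓡 2) u) := by
  refine ⟨hU, fun y _ => Line51.smAt_ang (hΦ y), Line51.dg_ang _,
    fun p => k * (2 * (1 / (1 + p.2 ^ 2))), fun p => by positivity, fun x y hy => ?_⟩
  have e1 : Φ ∘ b =ᶠ[𝓝 (x, y)] (fun q : R × ℝ => cay q.2) ^ k * (u ∘ Prod.fst) := by
    filter_upwards [(isOpen_lt continuous_snd.abs continuous_const).mem_nhds
      (show |((x, y) : R × ℝ).2| < 3 from abs_lt.2 hy)] with q hq using e q hq
  rw [Line51.pm_ang (hΦ _) (md (hb.contMDiff _)), Line51.ang_congr e1,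
    Line51.ang_mul ((csm_cay _).pow k) ((hu.comp contMDiff_fst) _), Line51.ang_pow (csm_cay _),
    ang_cay, smul_smul, ← Line51.pm_ang (hu _) mdifferentiableAt_fst, Sym24.pm_fst]

theorem dy {Φ : Y → Circle} {b : R × ℝ → Y} (hb : Box b) (hΦ : SC Φ) (e : ∀ p, Φ (b p) = cay p.2)
    (S : Set ℝ) : Dy b (ang (𝓡 3) Φ) S := fun x y _ =>
  ⟨2 * (1 / (1 + y ^ 2)), by positivity, by
    rw [Line51.pm_ang (hΦ _) (md (hb.contMDiff _)), show Φ ∘ b = _ from funext e, ang_cay]⟩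

theorem rest {Φ : Y → Circle} {Φ' : Y' → Circle} (φ : PartialDiffeomorph (𝓡 3) (𝓡 3) Y Y' ∞)
    (hΦ' : SC Φ') {p : Y'} (hp : p ∈ φ.target) {f : ℝ} (hf : 0 < f)
    (e : dl (𝓡 3) (Φ' ∘ φ) (φ.symm p) = f • dl (𝓡 3) Φ (φ.symm p)) :
    pm (𝓡 3) (𝓡 3) φ.symm (ang (𝓡 3) Φ) p = f⁻¹ • ang (𝓡 3) Φ' p := by
  have h1 : ContMDiffAt (𝓡 3) (𝓡 3) ∞ φ.symm p :=
    φ.contMDiffOn_invFun.contMDiffAt (φ.open_target.mem_nhds hp)
  have h2 : ContMDiffAt (𝓡 3) (𝓡 3) ∞ φ (φ.symm p) :=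
    φ.contMDiffOn_toFun.contMDiffAt (φ.open_source.mem_nhds (φ.map_target hp))
  have h3 : (Φ' ∘ φ) ∘ φ.symm =ᶠ[𝓝 p] Φ' := by
    filter_upwards [φ.open_target.mem_nhds hp] with q hq using congrArg Φ' (φ.right_inv hq)
  rw [← Line51.ang_congr h3, ← Line51.pm_ang ((hΦ' _).comp _ h2) (md h1), pm_apply, pm_apply,
    ang_eq, ang_eq, e, map_smul, map_smul, inv_smul_smul₀ hf.ne']

/-! ### the column -/

/-- the angle as a function of the height in the column of length seven -/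
def rho (t : ℝ) : ℝ := (1 - chi t) * bt t + chi t * (bt (t - 7) + 2 * π)

theorem bt_cd : ContDiff ℝ ∞ bt := (contDiff_const.mul contDiff_arctan).sub contDiff_const

theorem rho_cd : ContDiff ℝ ∞ rho := ((contDiff_const.sub chi_cd).mul bt_cd).add
  (chi_cd.mul ((bt_cd.comp (contDiff_id.sub contDiff_const)).add contDiff_const))

theorem rho_lo {t : ℝ} (h : t ≤ 3) : rho t = bt t := by simp [rho, chi_lo h]

theorem rho_hi {t : ℝ} (h : 4 ≤ t) : rho t = bt (t - 7) + 2 * π := by simp [rho, chi_hi h]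

theorem rho_der (t : ℝ) : ∃ d > (0 : ℝ), HasDerivAt rho d t := by
  have hb : ∀ s, HasDerivAt bt (2 * (1 / (1 + s ^ 2))) s := fun s =>
    ((hasDerivAt_arctan s).const_mul 2).sub_const π
  have hc := ((chi_cd.differentiable (by simp)) t).hasDerivAt
  have h0 : 0 ≤ deriv chi t :=
    Monotone.deriv_nonneg fun r s h => smoothTransition.monotone (sub_le_sub_right h 3)
  refine ⟨_, ?_, ((hc.const_sub 1).mul (hb t)).add
    (hc.mul (((hb (t - 7)).comp_sub_const t 7).add_const (2 * π)))⟩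
  have h1 : 0 ≤ chi t := smoothTransition.nonneg _
  have h2 : chi t ≤ 1 := smoothTransition.le_one _
  have h3 : 0 < 2 * (1 / (1 + t ^ 2)) := by positivity
  have h4 : 0 < 2 * (1 / (1 + (t - 7) ^ 2)) := by positivity
  have h5 := mul_nonneg h0 (show 0 ≤ bt (t - 7) + 2 * π - bt t by
    linarith [(bt_mem t).2, (bt_mem (t - 7)).1])
  rcases h1.eq_or_lt with h | h
  · rw [← h]; nlinarith
  · nlinarith [mul_pos h h4, mul_nonneg (sub_nonneg.2 h2) h3.le]

theorem rho_mono : StrictMono rho := strictMono_of_deriv_pos fun t => by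
  obtain ⟨d, h0, h⟩ := rho_der t
  rwa [h.deriv]

theorem rho_abs {t : ℝ} (h : t ∈ Ioo (2 : ℝ) (7 - 2)) : |rho t| < π := by
  have h1 := rho_mono h.1
  have h2 := rho_mono h.2
  rw [rho_lo (by norm_num)] at h1
  rw [rho_hi (t := 7 - 2) (by norm_num)] at h2
  have h3 := bt_mono (show (7 - 2 - 7 : ℝ) < 0 by norm_num)
  rw [bt_zero] at h3
  exact abs_lt.2 ⟨by linarith [bt_gt two_pos], by linarith⟩

theorem rho_ld (t : ℝ) : IsLocalDiffeomorphAt 𝓘(ℝ, ℝ) 𝓘(ℝ, ℝ) ∞ rho t := by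
  obtain ⟨d, h0, h⟩ := rho_der t
  exact Glue52.ld_of_fderiv isOpen_univ (mem_univ t) rho_cd.contDiffOn _
    (h.hasFDerivAt_equiv h0.ne')

theorem exists_ball {D : Set ℂ} (hD : IsOpen D) (h : D.Nonempty) :
    ∃ ι : EE 2 → ℂ, IsOE (𝓡 2) 𝓘(ℝ, ℂ) ι ∧ ∀ u, ι u ∈ D := by
  obtain ⟨z, hz⟩ := h
  obtain ⟨r, h0, hr⟩ := Metric.isOpen_iff.1 hD z hz
  let e : OpenPartialHomeomorph ℂ ℂ := OpenPartialHomeomorph.univBall z r
  have es : e.source = univ := OpenPartialHomeomorph.univBall_source z r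
  have et : e.target = Metric.ball z r := OpenPartialHomeomorph.univBall_target z h0
  have m : ∀ w, e w ∈ Metric.ball z r := fun w => et ▸ e.map_source (es ▸ mem_univ w)
  have he : IsOE 𝓘(ℝ, ℂ) 𝓘(ℝ, ℂ) e := ⟨fun a c h => e.injOn (es ▸ mem_univ a) (es ▸ mem_univ c) h,
    fun w => ld_of_inverse isOpen_univ Metric.isOpen_ball
      OpenPartialHomeomorph.contDiff_univBall.contMDiff.contMDiffOn
      OpenPartialHomeomorph.contDiffOn_univBall_symm.contMDiffOn (fun w _ => m w)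
      (fun _ _ => mem_univ _) (fun a _ => e.left_inv (es ▸ mem_univ a))
      (fun a ha => e.right_inv (et ▸ ha)) (mem_univ w)⟩
  exact ⟨_, he.comp (IsOE.of_diffeo
    Complex.orthonormalBasisOneI.repr.symm.toContinuousLinearEquiv.toDiffeomorph), fun u => hr (m _)⟩

theorem col {b : R × ℝ → Y} {U : Set Y} {Φ : Y → Circle} {D : Set ℂ} {c : ℂ × ℝ → Y}
    {e₁ e₂ : ℂ → R} (hb : Box b) (C : Clm b U Φ D c e₁ e₂) : H7.Col b U (ang (𝓡 3) Φ) := by
  obtain ⟨ι, hι, hD⟩ := exists_ball C.op C.ne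
  have ld : ∀ p : EE 2 × ℝ, IsLocalDiffeomorphAt (IR 2) ICR ∞ (Prod.map ι rho) p := fun p =>
    ld_prodMap (hι.loc p.1) (rho_ld p.2)
  refine ⟨c ∘ Prod.map ι rho, e₁ ∘ ι, e₂ ∘ ι, 7, by norm_num,
    fun p hp => ld_comp (C.ld _ (hD _) (rho_abs hp)) (ld p), fun p hp q hq e => ?_,
    fun p hp => C.mem _ (hD _) (rho_abs hp), fun p hp => ?_, fun u t ht => ?_, fun u t ht => ?_,
    fun u t ht hs => ?_⟩
  · exact hι.inj.prodMap rho_mono.injective
      (C.inj ⟨hD _, rho_abs hp.2⟩ ⟨hD _, rho_abs hq.2⟩ e)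
  · obtain ⟨d, h0, h⟩ := rho_der p.2
    have h1 : HasMFDerivAt (IR 2) ICR (Prod.map ι rho) p _ :=
      ((md (hι.contMDiff p.1)).hasMFDerivAt.comp p (hasMFDerivAt_fst p)).prodMk
        (h.hasFDerivAt.hasMFDerivAt.comp p (hasMFDerivAt_snd p))
    have h2 : mf (IR 2) ICR (Prod.map ι rho) p (0, 1) = d • ((0, 1) : ℂ × ℝ) := by
      rw [mf_of_has h1]
      refine Prod.ext ((map_zero (mf (𝓡 2) 𝓘(ℝ, ℂ) ι p.1)).trans (smul_zero d).symm) ?_
      exact (one_mul d).trans (mul_one d).symm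
    rw [pm_apply, ang_eq, pb_io, Sym24.nc_apply, ii_io, AlgHom.commutes, e0_alg,
      mf_comp (md (C.ld _ (hD _) (rho_abs hp)).contMDiffAt) h1.mdifferentiableAt]
    refine lt_of_lt_of_eq (mul_pos h0 (C.pos (Prod.map ι rho p) (hD _) (rho_abs hp))) ?_
    rw [← smul_eq_mul, ← map_smul, ← map_smul, ← h2]
    rfl
  · have e := C.lo _ (hD u) (bt t) ⟨bt_gt (by linarith [ht.1]), (bt_mem t).2⟩
    rw [show (bt t + π) / 2 = arctan t by rw [bt]; ring, tan_arctan] at e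
    rw [comp_apply, Prod.map_apply, rho_lo ht.2.le, e]
    rfl
  · have h1 := bt_mono (show t < 0 by linarith [ht.2])
    rw [bt_zero] at h1
    have e := C.hi _ (hD u) (bt t + 2 * π) ⟨by linarith [(bt_mem t).1], by linarith⟩
    rw [show (bt t + 2 * π - π) / 2 = arctan t by rw [bt]; ring, tan_arctan] at e
    rw [comp_apply, Prod.map_apply, rho_hi (by linarith [ht.1]), add_sub_cancel_right, e]
    rfl
  · have h0 := abs_lt.1 (rho_abs (t := t) ⟨by linarith [ht.1], by linarith [ht.2]⟩)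
    have h1 := rho_mono.monotone ht.1
    have h2 := rho_mono.monotone ht.2
    rw [rho_lo le_rfl, bt] at h1
    rw [rho_hi (t := 7 - 3) (by norm_num), bt, show (7 - 3 - 7 : ℝ) = -3 by norm_num] at h2
    rw [comp_apply, Prod.map_apply] at hs
    rcases lt_trichotomy (rho t) 0 with h | h | h
    · rw [C.lo _ (hD u) _ ⟨h0.1, h⟩, Sep15.mem_slab hb] at hs
      have h3 := arctan_strictMono hs.2
      rw [arctan_tan (by linarith [pi_pos]) (by linarith)] at h3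
      linarith
    · rw [h] at hs
      exact C.mid _ (hD u) (Sep15.slab_subset _ _ hs)
    · rw [C.hi _ (hD u) _ ⟨h, h0.2⟩, Sep15.mem_slab hb] at hs
      have h3 := arctan_strictMono hs.1
      rw [arctan_tan (by linarith) (by linarith [pi_pos])] at h3
      linarith

/-- **TF** -/
theorem tf : TfStmt := by
  intro Y Y' R U Φ U' Φ' oR b b' h G T F
  obtain ⟨k, A, B, δ, ε, hk, H, hε, hδ, e⟩ := T.hel
  obtain ⟨D, c, e₁, e₂, C⟩ := T.clm
  refine FT.step G.symm ⟨T.conn⟩ T.oriR T.kk.symm (kl T.oriR H hε hδ)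
    (hx G.o' T.sm' (Hd34.delStmt R A ε ⟨H.hA.ld, H.hA.per⟩ hε).1 hk T.sl' e) (col G.o' C)
    (dy G.o T.sm T.box _) (fun p hp hU => ?_) F
  have h1 := G.symm.mem_of_notMem (s := Ioo (-1) 1) ⟨by norm_num, by norm_num⟩ hp
  obtain ⟨h2, f, h3, h4⟩ := T.rest _ hU fun h2 => hp ((G.symm.mem_slab h1).1 h2)
  exact ⟨G.φ.right_inv h1 ▸ h2, f⁻¹, inv_pos.2 h3, rest G.φ T.sm' h1 h3 h4⟩

end Crest.Agent.X212.Tf47
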