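import Crest.Agent.X212.Hel40.Stp

/-!
# X212/Tf47/Psi (helper47): `Hel40.PsiStmt`
-/

set_option autoImplicit false
set_option linter.unusedSectionVars false

open Set Filter Topology Function
open scoped ContDiff Manifold
open Crest.Agent.X212.Cyl58 Crest.Agent.X212.Hel40
open Crest.Agent.X212.Sep15 (EE IR CM Box slab px Rg)

noncomputable section

namespace Crest.Agent.X212.Tf47

/-- `0` below `3`, `1` above `4` -/
def chi (s : ℝ) : ℝ := Real.smoothTransition (s - 3)

theorem chi_lo {s : ℝ} (h : s ≤ 3) : chi s = 0 := Real.smoothTransition.zero_of_nonpos (by linarith)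

theorem chi_hi {s : ℝ} (h : 4 ≤ s) : chi s = 1 := Real.smoothTransition.one_of_one_le (by linarith)

theorem chi_cd : ContDiff ℝ ∞ chi :=
  Real.smoothTransition.contDiff.comp (contDiff_id.sub contDiff_const)

theorem psi : PsiStmt := by
  intro Y Y' R b b' h G ψ D l₁ l₂ hψ hD h₁ h₂ H
  classical
  let F : R × ℝ → Circle := fun p =>
    D p.1 * Circle.exp (chi p.2 * l₁ (h.symm p.1) + chi (-p.2) * l₂ p.1)
  let k : Y' → Circle := ψ ∘ G.φ.symm
  let g : R × ℝ → Circle := fun p => if |p.2| < 4 then F p else k (b' p)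
  have hχ : ContMDiff (IR 2) 𝓘(ℝ, ℝ) ∞ fun p : R × ℝ => chi p.2 :=
    chi_cd.contMDiff.comp contMDiff_snd
  have hχ' : ContMDiff (IR 2) 𝓘(ℝ, ℝ) ∞ fun p : R × ℝ => chi (-p.2) :=
    (chi_cd.comp contDiff_neg).contMDiff.comp contMDiff_snd
  have hF : ContMDiff (IR 2) (𝓡 1) ∞ F := (hD.comp contMDiff_fst).mul (contMDiff_circleExp.comp
    ((hχ.mul ((h₁.comp h.symm.contMDiff).comp contMDiff_fst)).add (hχ'.mul (h₂.comp contMDiff_fst))))
  have hk : ∀ y ∉ slab b' {0}, ContMDiffAt (𝓡 3) (𝓡 1) ∞ k y := fun y hy => by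
    have h1 : y ∈ G.φ.target := G.tgt ▸ hy
    have h2 := G.φ.map_target h1
    refine ContMDiffAt.comp y (hψ.contMDiffAt ?_)
      (G.φ.contMDiffOn_invFun.contMDiffAt (G.φ.open_target.mem_nhds h1))
    rw [← G.src]
    exact G.φ.open_source.mem_nhds h2
  have gF : ∀ p : R × ℝ, |p.2| ≤ 7 → g p = F p := fun ⟨x, s⟩ hp => by
    by_cases h4 : |s| < 4
    · exact if_pos h4
    refine (if_neg h4).trans ?_
    have h7 := abs_le.1 hp
    rcases le_abs.1 (not_lt.1 h4) with h5 | h5
    · have e : G.φ.symm (b' (x, s)) = b (h.symm x, s) := G.symm.hi (x, s) (by dsimp only; linarith)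
      simp only [k, F, comp_apply, e, (H (h.symm x) s ⟨by linarith, h7.2⟩).1,
        Diffeomorph.apply_symm_apply, chi_hi h5, chi_lo (show -s ≤ 3 by linarith), one_mul, zero_mul,
        add_zero]
    · have e : G.φ.symm (b' (x, s)) = b (x, s) := G.symm.lo (x, s) (by dsimp only; linarith)
      have e2 := (H x (-s) ⟨by linarith, by linarith [h7.1]⟩).2
      rw [neg_neg] at e2
      simp only [k, F, comp_apply, e, e2, chi_hi h5, chi_lo (show s ≤ 3 by linarith), one_mul,
        zero_mul, zero_add]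
  have gk : ∀ p : R × ℝ, p.2 ∉ Ioo (-4 : ℝ) 4 → g p = k (b' p) := fun p hp =>
    if_neg fun h4 => hp (abs_lt.1 h4)
  have ca : Continuous fun p : R × ℝ => |p.2| := continuous_snd.abs
  have hg : ContMDiff (IR 2) (𝓡 1) ∞ g := fun p => by
    rcases lt_or_ge |p.2| 7 with h7 | h7
    · refine (hF p).congr_of_eventuallyEq ?_
      filter_upwards [(isOpen_lt ca continuous_const).mem_nhds h7] with q hq using gF q (le_of_lt hq)
    · have h4 : 4 < |p.2| := by linarith
      refine ((hk _ fun h0 => ?_).comp p (G.o'.contMDiff p)).congr_of_eventuallyEq ?_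
      · rw [show p.2 = 0 from (Sep15.mem_slab G.o').1 h0, abs_zero] at h4
        linarith
      · filter_upwards [(isOpen_lt continuous_const ca).mem_nhds h4] with q hq
        exact if_neg (lt_asymm hq)
  refine ⟨extend b' g k, chi, G.o'.contMDiff_extend' (K := univ ×ˢ Icc (-4) 4)
    (Sep15.isClosed_slab G.o' isCompact_Icc)
    (fun p hp => gk p fun h4 => hp ⟨mem_univ _, Ioo_subset_Icc_self h4⟩) hg
    (fun y hy => hk y fun h0 => hy (Sep15.slab_subset _ _ h0)), chi_cd, fun y hy => ?_,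
    fun p hp => ?_, fun x s hs => ⟨?_, ?_⟩⟩
  · have h1 := G.mem_of_notMem (s := Ioo (-4) 4) ⟨by norm_num, by norm_num⟩ hy
    rw [extend_eq_of_notMem G.o'.inj (K := univ ×ˢ Ioo (-4) 4)
      (fun p hp => gk p fun h4 => hp ⟨mem_univ _, h4⟩) fun h2 => hy ((G.mem_slab h1).1 h2)]
    exact congrArg ψ (G.φ.left_inv h1)
  · have h3 := abs_le.1 hp
    rw [G.o'.extend_apply, gF p (by linarith)]
    simp only [F, chi_lo h3.2, chi_lo (show -p.2 ≤ 3 by linarith), zero_mul, add_zero,
      Circle.exp_zero, mul_one]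
  · rw [G.o'.extend_apply, gF _ (abs_le.2 ⟨by linarith [hs.1], hs.2⟩)]
    simp only [F, chi_lo (show -s ≤ 3 by linarith [hs.1]), Diffeomorph.symm_apply_apply, zero_mul,
      add_zero]
  · rw [G.o'.extend_apply, gF _ (abs_le.2 ⟨by linarith [hs.2], by linarith [hs.1]⟩)]
    simp only [F, chi_lo (show -s ≤ 3 by linarith [hs.1]), neg_neg, zero_mul, zero_add]

end Crest.Agent.X212.Tf47
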